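import Vale.Agent.P093.Obs
import Vale.Agent.P093H.Defs

/-! P093H Obs. The obstruction. -/

open Filter Topology Set

noncomputable section

namespace Vale.Agent.P093

variable {X : Type} [TopologicalSpace X] {h : X ≃ₜ X} {p R M : ℕ} {L : Type} [Fintype L]
  [DecidableEq L] {Y : Set X} {ρ : L → X → Fin 3 → ℝ} {θ : ℝ}

theorem exists_coordH {g : X → ℂ} (g1 : ∀ x ∈ Y, g x = 1)
    (g0 : ∀ x ∉ Y, g x = 0) (β : X → Matrix (Fin p ⊕ L × Fin 2) (Fin p ⊕ L × Fin 2) ℂ)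
    {A B x : Fin p ⊕ L × Fin 2 → Fin p ⊕ L × Fin 2 → Hs X →L[ℂ] Hs X}
    (hA : ∀ i j ξ a, A i j ξ a = g ((h ^ a.1) a.2) * matA p L i j * ξ a)
    (hB : ∀ i j ξ a, B i j ξ a = g ((h ^ a.1) a.2) * β ((h ^ a.1) a.2) i j * ξ a)
    (hx : ∀ i j, FP R (x i j))
    (hε : ∀ i j, ‖∑ k, ∑ l, star (x k i) * B k l * x l j - A i j‖ <
      1 / (Fintype.card (Fin p ⊕ L × Fin 2) + 1))
    {y : X} {v : Fin M × Fin p → ℂ} (hv : v ≠ 0)
    (hy : ∀ a, v a ≠ 0 → (h ^ ((a.1 : ℕ) : ℤ)) y ∈ Y) :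
    ∃ (l : ℤ) (k : Fin p ⊕ L × Fin 2), (h ^ l) y ∈ Y ∧ -(R : ℤ) ≤ l ∧ l ≤ M + R ∧
      ∑ k', β ((h ^ l) y) k k' *
        ∑ a : Fin M × Fin p, v a * x k' (.inl a.2) (dl (((a.1 : ℕ) : ℤ), y)) (l, y) ≠ 0 := by
  classical
  obtain ⟨ξ, x1, x2⟩ : ∃ ξ : Fin p ⊕ L × Fin 2 → Hs X,
      (∀ α, ξ (.inl α) = ∑ j : Fin M, v (j, α) • dl (((j : ℕ) : ℤ), y)) ∧ ∀ b, ξ (.inr b) = 0 :=
    ⟨Sum.elim (fun α => ∑ j : Fin M, v (j, α) • dl (((j : ℕ) : ℤ), y)) 0, fun _ => rfl,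
      fun _ => rfl⟩
  have a1 : ∀ i j, A i j (ξ j) = if i = j then ξ j else 0 := fun i j => by
    rcases j with α | b
    swap
    · rw [x2, map_zero, ite_self]
    refine lp.ext (funext fun a => ?_)
    rw [hA]
    by_cases h0 : ξ (.inl α) a = 0
    · split_ifs
      · rw [h0, mul_zero]
      · rw [h0, mul_zero]
        rfl
    · have h1 := h0
      rw [x1, oba_sum] at h1
      obtain ⟨j, -, hj⟩ := Finset.exists_ne_zero_of_sum_ne_zero h1
      rw [oba_smul, dl_apply] at hj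
      have h2 : a = (((j : ℕ) : ℤ), y) := by
        by_contra h2
        rw [if_neg h2, mul_zero] at hj
        exact hj rfl
      have h3 : g ((h ^ a.1) a.2) = 1 := by
        rw [h2]
        exact g1 _ (hy (j, α) (left_ne_zero_of_mul hj))
      rw [h3, one_mul, matA, Matrix.diagonal_apply]
      split_ifs with h4
      · rw [h4, Sum.elim_inl, one_mul]
      · rw [zero_mul]
        rfl
  have a2 : ¬ ∀ k, ∑ l, B k l (∑ j, x l j (ξ j)) = 0 := fun h0 => hv (funext fun b => by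
    have h1 := congrArg (fun f : Hs X => f (((b.1 : ℕ) : ℤ), y))
      (oba_zero (z := fun k i => star (x k i)) a1 hε h0 (.inl b.2))
    simp only [x1, oba_sum, oba_smul, dl_apply] at h1
    rw [Finset.sum_eq_single b.1 (fun j _ hj => by
      rw [if_neg, mul_zero]
      intro e
      exact hj (Fin.ext (Nat.cast_injective (R := ℤ) (congrArg Prod.fst e)).symm))
      (fun hb => absurd (Finset.mem_univ _) hb), if_pos rfl, mul_one] at h1
    exact h1)
  obtain ⟨k, hk⟩ := not_forall.1 a2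
  obtain ⟨a, ha⟩ : ∃ a, (∑ l, B k l (∑ j, x l j (ξ j))) a ≠ 0 := by
    by_contra hc
    exact hk (lp.ext (funext fun a => not_not.1 (not_exists.1 hc a)))
  have e : ∀ l, (∑ j, x l j (ξ j)) a =
      ∑ b : Fin M × Fin p, v b * x l (.inl b.2) (dl (((b.1 : ℕ) : ℤ), y)) a := fun l => by
    rw [Fintype.sum_sum_type]
    simp only [x1, x2, map_zero, Finset.sum_const_zero, add_zero, map_sum, map_smul, oba_sum,
      oba_smul]
    rw [Fintype.sum_prod_type_right]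
  simp only [oba_sum _ (fun l => B k l _), hB, e, mul_assoc, ← Finset.mul_sum] at ha
  obtain ⟨b1, b2⟩ := mul_ne_zero_iff.1 ha
  obtain ⟨l, -, hl⟩ := Finset.exists_ne_zero_of_sum_ne_zero b2
  obtain ⟨b, -, hb⟩ := Finset.exists_ne_zero_of_sum_ne_zero (right_ne_zero_of_mul hl)
  obtain ⟨s1, s2⟩ := (hx _ _).supp _ _ (right_ne_zero_of_mul hb)
  obtain ⟨l', y'⟩ := a
  dsimp only at s1 s2 b1 b2
  subst s1
  have s3 := abs_le.1 s2
  have s5 := b.1.2
  exact ⟨l', k, by_contra fun hn => b1 (g0 _ hn), by omega, by omega, b2⟩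

theorem not_closeH (hM : MarkH h p θ Y ρ) {g : X → ℂ} (g1 : ∀ x ∈ Y, g x = 1)
    (g0 : ∀ x ∉ Y, g x = 0)
    {A B x : Fin p ⊕ L × Fin 2 → Fin p ⊕ L × Fin 2 → Hs X →L[ℂ] Hs X}
    (hA : ∀ i j ξ a, A i j ξ a = g ((h ^ a.1) a.2) * matA p L i j * ξ a)
    (hB : ∀ i j ξ a, B i j ξ a =
      g ((h ^ a.1) a.2) * matB p (fun l => ρ l ((h ^ a.1) a.2)) i j * ξ a)
    (hx : ∀ i j, x i j ∈ cross h) :
    ¬ ∀ i j, ‖∑ k, ∑ l, star (x k i) * B k l * x l j - A i j‖ <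
      1 / (Fintype.card (Fin p ⊕ L × Fin 2) + 1) := by
  intro hcl
  obtain ⟨R, x', hO, hx'⟩ := fp_approx (h := h)
    (x := fun a : (Fin p ⊕ L × Fin 2) × (Fin p ⊕ L × Fin 2) => x a.1 a.2) (fun a => hx _ _)
    (O := {x | ∀ i j, ‖∑ k, ∑ l, star (x (k, i)) * B k l * x (l, j) - A i j‖ <
      1 / (Fintype.card (Fin p ⊕ L × Fin 2) + 1)}) (by
      simp only [ofPred_forall]
      exact isOpen_iInter_of_finite fun i => isOpen_iInter_of_finite fun j =>
        isOpen_lt (by fun_prop) continuous_const) hcl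
  obtain ⟨M, V, Bad, φ, hφ, hφY, hφρ, hcard⟩ :=
    hM.cube (4 * ((R + 1) * Fintype.card (Fin p ⊕ L × Fin 2)))
  obtain ⟨H, hH, hH', hb⟩ := exists_hopf
  obtain ⟨κ₀⟩ : Nonempty (Option ((Bad × Fin 2 ⊕ (Fin (R + 1) × Bool) × (Fin p ⊕ L × Fin 2)) ×
      Fin 2) ↪ V × Fin p) := by
    refine Function.Embedding.nonempty_of_card_le ?_
    simp only [Fintype.card_option, Fintype.card_prod, Fintype.card_sum, Fintype.card_fin,
      Fintype.card_coe, Fintype.card_bool] at hcard ⊢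
    nlinarith
  obtain ⟨κ, hκ⟩ : ∃ κ : Option ((Bad × Fin 2 ⊕ (Fin (R + 1) × Bool) × (Fin p ⊕ L × Fin 2)) ×
      Fin 2) ↪ Fin M × Fin p, ∀ o, (κ o).1 ∈ V :=
    ⟨κ₀.trans ((Function.Embedding.subtype _).prodMap (Function.Embedding.refl _)),
      fun o => (κ₀ o).1.2⟩
  obtain ⟨v, u, hv, hu, h1, h2⟩ := obs_zero hH hH'
    (fun (i : ℤ × (Fin p ⊕ L × Fin 2)) o ω =>
      x' (i.2, .inl (κ o).2) (dl ((((κ o).1 : ℕ) : ℤ), φ ω)) (i.1, φ ω))
    (fun i o => ((hx' _).cont _ _).comp hφ)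
    (Sum.elim (fun b => (((b.1.1.1 : ℕ) : ℤ), .inr (b.1.1.2, b.2)))
      fun b => (if b.1.2 then (M : ℤ) + (b.1.1 : ℕ) else -((b.1.1 : ℕ) : ℤ), b.2))
    fun γ s => (((γ.1 : ℕ) : ℤ), .inr (γ.2, s))
  obtain ⟨j, k, hjY, l1, l2, hne⟩ := exists_coordH g1 g0
    (fun x => matB p fun l => ρ l x) hA hB (x := fun i j => x' (i, j)) (fun i j => hx' _) hO
    (y := φ fun γ => H (u γ)) (v := Function.extend κ (fun o => (v o : ℂ)) 0) (fun h0 => hv
      (funext fun o => by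
        have h3 := congrFun h0 (κ o)
        rw [κ.injective.extend_apply] at h3
        exact Complex.ofReal_eq_zero.1 h3)) (fun a ha => by
      by_cases h3 : ∃ o, κ o = a
      · obtain ⟨o, rfl⟩ := h3
        exact hφY _ _ (hκ o)
      · exact absurd (Function.extend_apply' _ _ _ h3) ha)
  have hsum : ∀ t : Fin M × Fin p → ℂ,
      ∑ a, Function.extend κ (fun o => (v o : ℂ)) 0 a * t a = ∑ o, v o * t (κ o) := fun t =>
    (Fintype.sum_of_injective κ κ.injective _ _ (fun a ha => by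
      rw [Function.extend_apply' _ _ _ ha, Pi.zero_apply, zero_mul])
      fun o => by rw [κ.injective.extend_apply]).symm
  simp only [hsum] at hne
  refine hne ?_
  by_cases j0 : j < 0
  · refine Finset.sum_eq_zero fun k' _ => ?_
    have h3 := h1 (.inr ((⟨(-j).toNat, by omega⟩, false), k'))
    have h4 : (0 : ℤ) ≤ -j := by omega
    simp only [Sum.elim_inr, Bool.false_eq_true, if_false, Int.toNat_of_nonneg h4, neg_neg] at h3
    rw [h3, mul_zero]
  by_cases jM : (M : ℤ) ≤ j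
  · refine Finset.sum_eq_zero fun k' _ => ?_
    have h3 := h1 (.inr ((⟨(j - M : ℤ).toNat, by omega⟩, true), k'))
    have h4 : (0 : ℤ) ≤ j - M := by omega
    simp only [Sum.elim_inr, if_true, Int.toNat_of_nonneg h4, add_sub_cancel] at h3
    rw [h3, mul_zero]
  obtain ⟨j, rfl⟩ : ∃ j' : Fin M, j = (j' : ℕ) := ⟨⟨j.toNat, by omega⟩, by simp; omega⟩
  rcases k with k | ⟨i, s⟩
  · exact Finset.sum_eq_zero fun k' _ => by rcases k' with k' | k' <;> simp [matB]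
  rw [Fintype.sum_sum_type, Fintype.sum_prod_type, Finset.sum_eq_zero fun k' _ => by simp [matB],
    zero_add, Finset.sum_eq_single i (fun i' _ hi => Finset.sum_eq_zero fun s' _ => by
      simp [matB, hi.symm]) (by simp)]
  simp only [matB, if_true]
  by_cases hbad : (j, i) ∈ Bad
  · refine Finset.sum_eq_zero fun s' _ => ?_
    have h3 := h1 (.inl (⟨_, hbad⟩, s'))
    simp only [Sum.elim_inl] at h3
    rw [h3, mul_zero]
  · have h0 : ((∑ c, u (j, i) c ^ 2 : ℝ) : ℂ) ≠ 0 := by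
      obtain ⟨c, hc⟩ := Function.ne_iff.1 (hu (j, i))
      exact Complex.ofReal_ne_zero.2 (Finset.sum_pos' (fun _ _ => sq_nonneg _)
        ⟨c, Finset.mem_univ _, sq_pos_of_ne_zero hc⟩).ne'
    refine (mul_eq_zero.1 ?_).resolve_left h0
    have h3 := hφρ (fun γ => H (u γ)) (j, i) hbad hjY
    simp only at h3
    simp only [h3, Finset.mul_sum _ (fun s' : Fin 2 => _), ← mul_assoc, hb _ (hu (j, i))]
    simp only [mul_assoc, ← Finset.mul_sum]
    rw [h2 (j, i), mul_zero]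

end Vale.Agent.P093
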