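import Vale.Agent.P093.Core
import Vale.Agent.P093H.Obs

/-! P093H Core. The lower bound from marked products of spheres. -/

open Filter Topology Set
open scoped ComplexOrder

noncomputable section

namespace Vale.Agent.P093

variable {X : Type} [TopologicalSpace X] [CompactSpace X] {h : X ≃ₜ X} {p : ℕ} {L : Type}
  [Fintype L] [DecidableEq L] {Y : Set X} {ρ : L → X → Fin 3 → ℝ} {θ : ℝ}

omit [CompactSpace X] in
theorem trace_ge (hY : ∃ C : ℝ, ∀ x (N : ℕ), θ * N ≤ cnt h Y x N + C) {g : C(X, ℂ)}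
    (g1 : ∀ x ∈ Y, g x = 1) (g0 : ∀ x ∉ Y, g x = 0) (μ : C(X, ℂ) →ₗ[ℂ] ℂ) (μ1 : μ 1 = 1)
    (hμ : ∀ f, μ (f.comp ⟨h, h.continuous⟩) = μ f) (μ0 : ∀ f, 0 ≤ μ (star f * f)) :
    θ ≤ (μ g).re := by
  classical
  obtain ⟨C, hC⟩ := hY
  let G : ℕ → C(X, ℂ) := fun j => g.comp ⟨(h ^ (j : ℤ) : X ≃ₜ X), Homeomorph.continuous _⟩
  have h1 : ∀ j, μ (G j) = μ g := fun j => by
    induction j with
    | zero => exact congrArg μ (ContinuousMap.ext fun x => by simp [G])
    | succ j ih =>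
      rw [← ih, ← hμ (G j)]
      exact congrArg μ (ContinuousMap.ext fun x => by simp [G, pow_succ, zpow_add_one])
  have h2 : ∀ N : ℕ, θ * N ≤ N * (μ g).re + C := fun N => by
    let f : C(X, ℂ) := ∑ j ∈ Finset.range N, G j + ((C - θ * N : ℝ) : ℂ) • 1
    have a1 : ∀ x, f x = ((cnt h Y x N + (C - θ * N) : ℝ) : ℂ) := fun x => by
      simp only [f, ContinuousMap.add_apply, ContinuousMap.coe_sum, Finset.sum_apply,
        ContinuousMap.smul_apply, ContinuousMap.one_apply, smul_eq_mul, mul_one]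
      rw [Complex.ofReal_add, Complex.ofReal_natCast, cnt, Finset.card_filter, Nat.cast_sum]
      congr 1
      refine Finset.sum_congr rfl fun j _ => ?_
      split_ifs with hj
      · rw [Nat.cast_one]
        exact g1 _ hj
      · rw [Nat.cast_zero]
        exact g0 _ hj
    let s : C(X, ℂ) := ⟨fun x => ((√((f x).re) : ℝ) : ℂ), by fun_prop⟩
    have a2 : star s * s = f := by
      ext x
      have a3 : 0 ≤ (f x).re := by
        rw [a1, Complex.ofReal_re]
        linarith [hC x N]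
      change star ((√((f x).re) : ℝ) : ℂ) * ((√((f x).re) : ℝ) : ℂ) = f x
      rw [Complex.star_def, Complex.conj_ofReal, ← Complex.ofReal_mul, Real.mul_self_sqrt a3, a1,
        Complex.ofReal_re]
    have a4 := (Complex.le_def.1 (μ0 s)).1
    rw [a2, map_add, map_sum, Finset.sum_congr rfl fun j _ => h1 j, Finset.sum_const,
      Finset.card_range, map_smul, μ1, smul_eq_mul, mul_one, nsmul_eq_mul, Complex.add_re,
      ← Complex.ofReal_natCast, Complex.re_ofReal_mul, Complex.ofReal_re, Complex.zero_re] at a4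
    linarith
  by_contra hc
  push Not at hc
  obtain ⟨N, hN⟩ := exists_nat_gt (C / (θ - (μ g).re))
  rw [div_lt_iff₀ (sub_pos.2 hc)] at hN
  linarith [h2 N]

omit [CompactSpace X] in
theorem corH_mats (hM : MarkH h p θ Y ρ) {g : C(X, ℂ)} (gg : ∀ x, g x * g x = g x)
    (gs : ∀ x, star (g x) = g x) :
    ∃ A₀ B₀ D₀ : Matrix (Fin p ⊕ L × Fin 2) (Fin p ⊕ L × Fin 2) C(X, ℂ),
      (∀ x, cor_ev A₀ x = g x • matA p L) ∧ (∀ x, cor_ev B₀ x = g x • matB p fun l => ρ l x) ∧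
      star A₀ = A₀ ∧ A₀ * A₀ = A₀ ∧ star B₀ = B₀ ∧ B₀ - B₀ * B₀ = star D₀ * D₀ := by
  obtain ⟨A₀, hA⟩ := cor_lift g (fun _ => matA p L) fun _ _ => continuous_const
  obtain ⟨B₀, hB⟩ := cor_lift g (fun x => matB p fun l => ρ l x) fun i j =>
    (matB_cont i j).comp (continuous_pi hM.cont)
  obtain ⟨D₀, hD⟩ := cor_lift (ι := Fin p ⊕ L × Fin 2) g (fun x => Matrix.diagonal
    (Sum.elim (fun _ => 0) fun a => ((√((1 - ∑ c, ρ a.1 x c ^ 2) / 4) : ℝ) : ℂ))) fun i j => by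
      simp only [Matrix.diagonal_apply]
      split_ifs
      · rcases i with i | i
        · exact continuous_const
        · have := hM.cont i.1
          simp only [Sum.elim_inr]
          fun_prop
      · exact continuous_const
  refine ⟨A₀, B₀, D₀, hA, hB, cor_ext fun x => ?_, cor_ext fun x => ?_, cor_ext fun x => ?_,
    cor_ext fun x => ?_⟩
  · rw [cor_ev_star, hA, star_smul, gs, matA_star]
  · rw [cor_ev_mul, hA, smul_mul_smul_comm, gg, matA_sq]
  · rw [cor_ev_star, hB, star_smul, gs, matB_star]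
  · rw [cor_ev_sub, cor_ev_mul, cor_ev_mul, cor_ev_star, hB, hD, star_smul, gs, smul_mul_smul_comm,
      smul_mul_smul_comm, gg, ← smul_sub, matB_sq, Matrix.star_eq_conjTranspose,
      Matrix.diagonal_conjTranspose, Matrix.diagonal_mul_diagonal]
    refine congrArg (fun f => g x • Matrix.diagonal f) (funext fun i => ?_)
    rcases i with i | i
    · simp only [Sum.elim_inl, mul_zero]
    · have h0 : 0 ≤ (1 - ∑ c, ρ i.1 x c ^ 2) / 4 := by linarith [hM.ball i.1 x]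
      simp only [Sum.elim_inr, Pi.star_apply, Complex.star_def, Complex.conj_ofReal]
      rw [← Complex.ofReal_mul, Real.mul_self_sqrt h0]

omit [CompactSpace X] in
theorem corH_dim (hY : ∃ C : ℝ, ∀ x (N : ℕ), θ * N ≤ cnt h Y x N + C)
    (hp : (p : ℝ) ≤ Fintype.card L) {r : ℝ} (hr : r < ((Fintype.card L : ℝ) - p) * θ)
    {g : C(X, ℂ)} (g1 : ∀ x ∈ Y, g x = 1) (g0 : ∀ x ∉ Y, g x = 0) {A : Type} [CStarAlgebra A]
    [PartialOrder A] [StarOrderedRing A] (π : C(X, ℂ) →⋆ₐ[ℂ] A) {n : ℕ}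
    (σ : Fin n ≃ Fin p ⊕ L × Fin 2)
    {A₀ B₀ : Matrix (Fin p ⊕ L × Fin 2) (Fin p ⊕ L × Fin 2) C(X, ℂ)}
    (hA : ∀ x, cor_ev A₀ x = g x • matA p L)
    (hB : ∀ x, cor_ev B₀ x = g x • matB p fun l => ρ l x)
    (a1 : star (cor_F π σ A₀) = cor_F π σ A₀) (a2 : cor_F π σ A₀ * cor_F π σ A₀ = cor_F π σ A₀)
    (b0 : 0 ≤ cor_F π σ B₀) (b3 : cor_F π σ B₀ ≤ 1) {τ : A →ₗ[ℂ] ℂ} (ht : IsTracial τ)
    (hτ : ∀ f, τ (π (f.comp ⟨h, h.continuous⟩)) = τ (π f)) :
    dimFn τ (cor_F π σ A₀) + r < dimFn τ (cor_F π σ B₀) := by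
  have e : θ ≤ (τ (π g)).re := trace_ge hY g1 g0 (τ ∘ₗ π.toAlgHom.toLinearMap)
    (by
      show τ (π 1) = 1
      rw [map_one, ht.1]) hτ fun f => by
      show 0 ≤ τ (π (star f * f))
      rw [map_mul, map_star]
      exact ht.2.1 _
  refine lt_of_lt_of_le ?_ (le_dimFn ht b0 b3)
  rw [dimFn_proj τ a1 a2, cor_F_tr π σ hA fun _ => matA_tr,
    cor_F_tr π σ hB fun x => matB_tr _, map_smul, map_smul]
  have e1 : ∀ k : ℕ, ((k : ℂ) • τ (π g)).re = k * (τ (π g)).re := fun k => by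
    rw [smul_eq_mul, ← Complex.ofReal_natCast, Complex.re_ofReal_mul]
  rw [e1, e1]
  have := mul_le_mul_of_nonneg_left e (sub_nonneg.2 hp)
  linarith

theorem not_boundH [PartialOrder (cross h)] [StarOrderedRing (cross h)] (hM : MarkH h p θ Y ρ)
    (hp : (p : ℝ) ≤ Fintype.card L) {r : ℝ} (hr : r < ((Fintype.card L : ℝ) - p) * θ) :
    ¬ IsBound (cross h) r := by
  intro hb
  obtain ⟨π, hπ, hτ⟩ := exists_rep h
  let g : C(X, ℂ) := ⟨Y.indicator fun _ => 1, hM.clopen.continuous_indicator continuous_const⟩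
  have g1 : ∀ x ∈ Y, g x = 1 := fun x hx => indicator_of_mem hx fun _ => (1 : ℂ)
  have g0 : ∀ x ∉ Y, g x = 0 := fun x hx => indicator_of_notMem hx fun _ => (1 : ℂ)
  have gg : ∀ x, g x * g x = g x := fun x => by
    by_cases hx : x ∈ Y
    · rw [g1 x hx, mul_one]
    · rw [g0 x hx, mul_zero]
  have gs : ∀ x, star (g x) = g x := fun x => by
    by_cases hx : x ∈ Y
    · rw [g1 x hx, star_one]
    · rw [g0 x hx, star_zero]
  obtain ⟨A₀, B₀, D₀, hA, hB, a1, a2, b1, b2⟩ := corH_mats hM gg gs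
  let σ := (Fintype.equivFin (Fin p ⊕ L × Fin 2)).symm
  have a1' : star (cor_F π σ A₀) = cor_F π σ A₀ := by rw [cor_F_star, a1]
  have a2' : cor_F π σ A₀ * cor_F π σ A₀ = cor_F π σ A₀ := by rw [cor_F_mul, a2]
  have b1' : star (cor_F π σ B₀) = cor_F π σ B₀ := by rw [cor_F_star, b1]
  have b2' : cor_F π σ B₀ - cor_F π σ B₀ * cor_F π σ B₀ = star (cor_F π σ D₀) * cor_F π σ D₀ := by
    rw [cor_F_mul, cor_F_sub, b2, cor_F_star, cor_F_mul]
  have a0 : 0 ≤ cor_F π σ A₀ := by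
    have := star_mul_self_nonneg (cor_F π σ A₀)
    rwa [a1', a2'] at this
  obtain ⟨b0, b3⟩ := unit_of b1' b2'
  obtain ⟨x, hx⟩ := hb _ _ _ a0 b0 fun τ ht =>
    corH_dim hM.avg hp hr g1 g0 π σ hA hB a1' a2' b0 b3 ht (hτ τ ht)
  obtain ⟨k, hk⟩ := (Metric.tendsto_nhds.1 hx (1 / (Fintype.card (Fin p ⊕ L × Fin 2) + 1))
    (by positivity)).exists
  rw [dist_eq_norm] at hk
  refine not_closeH hM g1 g0 (A := fun i j => π (A₀ i j)) (B := fun i j => π (B₀ i j))
    (x := fun i j => x k (σ.symm i) (σ.symm j)) (fun i j ξ a => ?_) (fun i j ξ a => ?_)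
    (fun i j => (x k (σ.symm i) (σ.symm j)).2) fun i j => ?_
  · rw [hπ]
    exact congrArg (· * ξ a) (congrFun (congrFun (hA _) i) j)
  · rw [hπ]
    exact congrArg (· * ξ a) (congrFun (congrFun (hB _) i) j)
  · refine lt_of_eq_of_lt ?_
      ((CStarMatrix.norm_entry_le_norm (i := σ.symm i) (j := σ.symm j)).trans_lt hk)
    have e : (star (x k) * cor_F π σ B₀ * x k - cor_F π σ A₀) (σ.symm i) (σ.symm j) =
        ∑ a, ∑ b, star (x k (σ.symm a) (σ.symm i)) * π (B₀ a b) * x k (σ.symm b) (σ.symm j) -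
          π (A₀ i j) := by
      rw [CStarMatrix.sub_apply, CStarMatrix.mul_apply, cor_F_apply, Equiv.apply_symm_apply,
        Equiv.apply_symm_apply, Finset.sum_comm, ← Equiv.sum_comp σ.symm]
      congr 1
      refine Finset.sum_congr rfl fun b _ => ?_
      rw [CStarMatrix.mul_apply, Finset.sum_mul, ← Equiv.sum_comp σ.symm]
      refine Finset.sum_congr rfl fun a _ => ?_
      rw [CStarMatrix.star_apply, cor_F_apply, Equiv.apply_symm_apply, Equiv.apply_symm_apply]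
    rw [e]
    exact (congrArg norm (cor_coe (cross h) _ _ _ _)).symm

theorem le_rcH (hM : MarkH h p θ Y ρ) (hθ : 0 ≤ θ) :
    ENNReal.ofReal (((Fintype.card L : ℝ) - p) * θ) ≤ rc (cross h) := by
  rcases le_total (p : ℝ) (Fintype.card L) with hp | hp
  swap
  · rw [ENNReal.ofReal_of_nonpos (mul_nonpos_of_nonpos_of_nonneg (sub_nonpos.2 hp) hθ)]
    exact zero_le
  let := CStarAlgebra.spectralOrder (cross h)
  have := CStarAlgebra.spectralOrderedRing (cross h)
  refine le_iInf₂ fun r hr => ?_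
  rw [← ENNReal.ofReal_coe_nnreal]
  exact ENNReal.ofReal_le_ofReal (not_lt.1 fun hlt => not_boundH hM hp hlt hr)

end Vale.Agent.P093
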