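import Vale.Agent.P093.Main
import Vale.Agent.P093H.Core
import Vale.Agent.P093H.Md
import Vale.Agent.P093H.Rok
import Vale.Agent.P093H.Grp

/-! P093H Main (TASK). Choice of the parameters; a port of `Vale/Agent/P093/Main.lean` (reuse `mai_num` with `δ = 4 ε`, `s = mx σ F q`, `cap_mul_le`, `cap_le_one`). Helper names start with `hma_`.
`Z` is nonempty because the space is infinite. For `η > 0` choose `t ≥ k / η`, `ε = min (1 / 2) (η / (16 t k + k + 1))`, `q` from `exists_mx`, `Y` from `exists_tower` (`Hole.base_min`, `Hole.aper`), `G = mx * k / (2 t + 1)`, `p = ⌊16 t k ε q⌋₊ + 1`. Then `(G t - p) * ((1 - ε) / q) ≥ (k cap / 2 - 3 η) (1 - ε) ≥ k cap / 2 - 4 η`.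
`Hole.main`: `ENNReal.div_le_of_le_mul`-type lemma or `ENNReal.iSup_div`, `iSup₂_le`, `hole_limsup`, `Hole.rc_ge` for the cube of dimension `leastOrd 𝒲`. -/

open Filter Topology Set

noncomputable section

namespace Vale.Agent.P093

variable {Z K : Type} [MetricSpace Z] [CompactSpace Z] [TotallyDisconnectedSpace Z]
  [MetricSpace K] [CompactSpace K] {σ : Z ≃ₜ Z} {F : Set Z} {v : Z → K}
  {h : holeSet σ F v ≃ₜ holeSet σ F v} {k : ℕ}

theorem hma_num {a b k c η ε : ℝ} (hk : 0 ≤ k) (hc : c ≤ 1) (hη : 0 < η) (h0 : 0 < ε)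
    (h1 : ε ≤ 1 / 2) (h2 : k * ε ≤ η) (ha : a = k * c / 2 - 3 * η) (hb : a ≤ b)
    (hp : 0 < k * c / 2 - 4 * η) : k * c / 2 - 4 * η ≤ b * (1 - ε) := by
  have a1 : a * (1 - ε) ≤ b * (1 - ε) := mul_le_mul_of_nonneg_right hb (by linarith)
  have a2 : k * c ≤ k := mul_le_of_le_one_right hk hc
  have a3 : a * ε ≤ k * ε := mul_le_mul_of_nonneg_right (by linarith) h0.le
  linarith

theorem hma_step (H : Hole σ F v h) [Infinite (holeSet σ F v)]
    {e : (Fin k → unitInterval) → K} (he : Continuous e) (he' : Function.Injective e)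
    (hk : 0 < k) {η : ℝ} (hη : 0 < η) :
    ENNReal.ofReal (k * cap σ F / 2 - 4 * η) ≤ rc (cross h) := by
  have := H.compact
  rcases le_or_gt (k * cap σ F / 2 - 4 * η) 0 with hp | hp
  · rw [ENNReal.ofReal_of_nonpos hp]
    exact zero_le
  obtain ⟨x₀⟩ : Nonempty (holeSet σ F v) := inferInstance
  have : Nonempty Z := ⟨x₀.1.1⟩
  obtain ⟨t, ht⟩ := exists_nat_ge (k / η)
  obtain ⟨Q₀, hQ₀⟩ := exists_nat_ge (((t : ℝ) + 1) / η)
  obtain ⟨ε, hε, hε1, hε2⟩ : ∃ ε : ℝ, 0 < ε ∧ ε ≤ 1 / 2 ∧ ε * (16 * t * k + k + 1) ≤ η := by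
    refine ⟨min (1 / 2) (η / (16 * t * k + k + 1)), by positivity, min_le_left _ _, ?_⟩
    exact (le_div_iff₀ (by positivity)).1 (min_le_right _ _)
  obtain ⟨q, hq, hm⟩ := exists_mx (σ := σ) (F := F) hε Q₀
  have hq0 : 0 < q := by omega
  obtain ⟨Y, hY⟩ := exists_tower H.base_min (fun z n hn => H.aper z hn) hq0 hε
  obtain ⟨ρ, hM⟩ := H.mark he he' hk hq0 hε hε1 hY hm (t := t)
    (G := mx σ F q * k / (2 * t + 1)) (p := ⌊16 * t * k * ε * q⌋₊ + 1) (Nat.div_mul_le_self _ _)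
    (by push_cast; exact Nat.lt_floor_add_one _)
  have hq' : (0 : ℝ) < q := by exact_mod_cast hq0
  refine le_trans (ENNReal.ofReal_le_ofReal ?_)
    (le_rcH hM (div_nonneg (by linarith) hq'.le))
  rw [Fintype.card_prod, Fintype.card_fin, Fintype.card_fin, Nat.cast_mul, ← mul_div_assoc,
    mul_div_right_comm _ (1 - ε)]
  have b1 : 0 ≤ ε * (16 * t * k) := by positivity
  have b2 : 0 ≤ ε * k := by positivity
  refine hma_num (by positivity) cap_le_one hη hε hε1 (by linarith) rfl ?_ hp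
  refine mai_num (s := mx σ F q) (δ := 4 * ε) hq' (by positivity) (by positivity) hη.le
    cap_le_one (cap_mul_le q) ?_ ?_ ?_ ?_ ?_
  · have h1 : mx σ F q * k < (mx σ F q * k / (2 * t + 1) + 1) * (2 * t + 1) := by
      rw [mul_comm _ (2 * t + 1)]
      exact Nat.lt_mul_div_succ _ (by omega)
    exact_mod_cast h1
  · push_cast
    have := Nat.floor_le (a := 16 * t * k * ε * (q : ℝ)) (by positivity)
    linarith
  · rw [div_le_iff₀ hη] at ht
    linarith
  · linarith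
  · rw [div_le_iff₀ hη] at hQ₀
    have : (Q₀ : ℝ) ≤ q := by exact_mod_cast hq.le
    nlinarith

theorem Hole.rc_ge (H : Hole σ F v h) [Infinite (holeSet σ F v)]
    {e : (Fin k → unitInterval) → K} (he : Continuous e) (he' : Function.Injective e) :
    ENNReal.ofReal (k * cap σ F / 2) ≤ rc (cross h) := by
  rcases Nat.eq_zero_or_pos k with rfl | hk
  · simp
  refine ENNReal.le_of_forall_pos_le_add fun ε hε _ => ?_
  have hε' : (0 : ℝ) < ε := hε
  have h1 := hma_step H he he' hk (η := ε / 4) (by positivity)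
  calc ENNReal.ofReal (k * cap σ F / 2)
      = ENNReal.ofReal ((k * cap σ F / 2 - 4 * (ε / 4)) + ε) := by congr 1; ring
    _ ≤ ENNReal.ofReal (k * cap σ F / 2 - 4 * (ε / 4)) + ENNReal.ofReal ε :=
      ENNReal.ofReal_add_le
    _ ≤ rc (cross h) + ε := by
      rw [ENNReal.ofReal_coe_nnreal]
      exact add_le_add h1 le_rfl

theorem Hole.main (H : Hole σ F v h) [Infinite (holeSet σ F v)]
    (hK : ∀ 𝒰 : Set (Set K), IsCover 𝒰 → ∃ e : (Fin (leastOrd 𝒰) → unitInterval) → K,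
      Continuous e ∧ Function.Injective e) : mdim h / 2 ≤ rc (cross h) := by
  rw [mdim, ENNReal.iSup_div]
  refine iSup_le fun 𝒰 => ?_
  rw [ENNReal.iSup_div]
  refine iSup_le fun hU => ?_
  obtain ⟨𝒲, hW, h1⟩ := hole_limsup H hU
  obtain ⟨e, he, he'⟩ := hK 𝒲 hW
  refine le_trans ?_ (H.rc_ge he he')
  rw [ENNReal.ofReal_div_of_pos two_pos, ENNReal.ofReal_ofNat]
  exact ENNReal.div_le_div_right h1 2

end Vale.Agent.P093
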